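import Vale.Agent.P011.D4W.H359.Short
import Vale.Agent.P011N.D1.Base
import Vale.Agent.P011N.D1.D4Y.Defs
import Vale.Agent.P011N.D1.D4Y.H63.Mix
import Vale.Agent.P011N.D1.D4Y.H691.Na

/-!
Version for big subgroups of `P011.D4W.H359.Short`.
-/

open NumberField IsDedekindDomain

namespace Vale.Agent.P011.D4W.H359

open Vale.Agent.P011.Arith Vale.Agent.P011.MPQ Vale.Agent.P011.D4 Vale.Agent.P011.D4.Oct
  Vale.Agent.P011.E6 Vale.Agent.P011.D4X Vale.Agent.P011.D4Y

section arith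

variable {k L E : Type} [Field k] [NumberField k] [Field L] [NumberField L] [Field E]
  [Algebra k L] [Algebra k E] [Algebra L E] [IsScalarTower k L E] [NeZero (2 : E)]
  {ρ σ ι : E ≃ₐ[k] E} {α : E} {a b c : kˣ} {q : Lˣ}
  (H : HyI ρ σ ι α a b c q)

include H

/-- **The short subgroup** lies in the finite residual. -/
theorem short_memB {x : SL1 (up L a) (q * up L b)} {g : OctL E a b c ≃ₗ[E] OctL E a b c}
    (hg : ∀ y : OctL E a b c, g y = shortFun ρ (psiL α q ((x : (Qt (up L a) (q * up L b))ˣ) :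
      Qt (up L a) (q * up L b))) y) : g ∈ RsIB ρ σ ι α a b c q := by
  classical
  choose S hS1 hS2 using exists_shortI (c := c) H
  have hmul : ∀ x y, S (x * y) = S x * S y := by
    intro x y
    apply LinearEquiv.ext
    intro z
    rw [LinearEquiv.mul_apply, hS2, hS2, hS2, ← Em.shortFun_mul, ← H.psiL_mul]
    rfl
  let s : SL1 (up L a) (q * up L b) →* GTI ρ σ ι α a b c q :=
    MonoidHom.mk' (fun x => ⟨S x, hS1 x⟩) fun x y => Subtype.ext (hmul x y)
  have hgS : g = S x := by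
    apply LinearEquiv.ext
    intro y
    rw [hg, hS2]
  rw [hgS, mem_RsIB]
  refine ⟨hS1 x, ?_⟩
  rw [mem_fresB]
  intro N hN
  suffices h : N.comap s = ⊤ by
    have : x ∈ N.comap s := by rw [h]; exact Subgroup.mem_top x
    exact this
  have hn := (hN.comap s).normal
  have hi := (hN.comap s).index H.aniso1
  refine top_of_pairs (k := k) (a := a)
    (R := {w | Ram (up L a) q w ∨ Ram (up L a) (q * up L b) w}) H.h3 H.aniso1
    (fun w hw => hw.elim ram_not_LS ram_not_LS) hn hi ?_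
  intro v D0 hD0 hD0R θ
  obtain ⟨D, hD1, hD2, hD3⟩ := H183.good_near H v D0 hD0 (fun w h1 h2 => hD0R w h2 h1) θ
  refine ⟨D, hD1, hD2.2.2.2.1, ?_⟩
  intro t r p p' hDt hp hpp hp' hpp' y hy
  obtain ⟨w0, hw0, hww0⟩ := hD2.2.1
  have n0 : nrd ((1 / 2 : k) • (t • (1 : Qt a b) + w0)) = (r : k) := by
    rw [nrd_half hw0 hww0, hDt]
    ring
  have n1 : nrd ((1 / 2 : L) • (algebraMap k L t • (1 : Qt (up L a) (q * up L b)) + p')) =
      algebraMap k L (r : k) := by
    rw [nrd_half hp' hpp', hDt, map_sub, map_mul, map_pow, map_ofNat]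
    ring
  obtain ⟨g2, hg2⟩ := exists_mid (c := c) H r _ _ n0 n1
  have h2 : g2 ∈ RsIB ρ σ ι α a b c q :=
    D4Y.H63.mid_memB H r t D w0 p' hDt hD2 hD3 hw0 hww0 hp' hpp' g2 hg2
  have h1 : S y * g2 ∈ RsIB ρ σ ι α a b c q := by
    refine D4Y.H63.mid_memB H r t D w0 p hDt hD2 hD3 hw0 hww0 hp hpp _ fun z => ?_
    rw [LinearEquiv.mul_apply, hg2, map_smul, hS2, ← zFI_mul H _ y.2, hy]
  have h3 := mul_mem h1 (inv_mem h2)
  rw [mul_inv_cancel_right] at h3
  obtain ⟨h6, h7⟩ := mem_RsIB.1 h3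
  exact mem_fresB.1 h7 _ hN

end arith

end Vale.Agent.P011.D4W.H359
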